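import Vale.Agent.P283B.Asm.Q1
import Vale.Agent.P283B.Tool.Mmp
import Vale.Agent.P287D.On.Fld
import Vale.Agent.P287D.On.Cen
import Vale.Agent.P287D.Gf.Six
import Vale.Agent.P287D.Gf.Vp
import Vale.Agent.P287D.Gf.Des

/-!
# P283B, block ASM: the rows are theorems
-/

namespace Vale.Agent.P283B

open P287D

theorem Asm.ax : Asm.Ax :=
  ⟨Api.mod, Api.neg, fld', fun _ _ _ _ hK _ _ _ a b => On.cle_of_sec hK a b, g1, g1b, g2, g3, g4,
    g6 Api.mod res' Api.vol Api.pb g2 g2b g3 (g3b Api.mod Api.neg)⟩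

theorem slc : SLC := Asm.slc Asm.ax bert

theorem sq1 : SQ1 := Asm.sq1 Asm.ax bert

end Vale.Agent.P283B
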