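import Vale.Agent.P283B.Asm.Loc
import Vale.Agent.P287D.Gf.St

/-!
# P283B, block ASM: the geometric generic fibre
-/

open Set
open Vale.Agent.P297Z

noncomputable section

namespace Vale.Agent.P283B.Asm

open P287D

/-- the rows which are used -/
structure Ax : Prop where
  mod : MOD
  neg : NEG
  fld : FLD
  csec : CSEC
  g1 : G1
  g1b : G1b
  g2 : G2
  g3 : G3
  g4 : G4
  g6 : G6

variable {K K' : Type} [Field K] [Algebra ℂ K] [Field K'] [Algebra ℂ K'] {n r m : ℕ}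
  {β Λ Γ : BD K} {s : Finset K} {R : Pl K} {L : IntermediateField ℂ K} {φ : K →+* K'}

theorem no_pl (h : FF K 0) (P : Pl K) : False := by
  have e : _ + 1 = Algebra.trdeg ℂ K := P.dvl
  rw [h.trdeg] at e
  simp at e

theorem gfd (h : GFd r m L φ) (h2 : G2) (h3 : G3) {g : K'} (hg : Sec (pb φ β) g) (g0 : g ≠ 0)
    {P' : Pl K'} {P : Pl K} (e : Lies φ P' P) :
    ∃ f : K, f ≠ 0 ∧ (∀ Q, Hor L Q → 0 ≤ Q.ord f + β Q) ∧ P.ord f ≤ P'.ord g := by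
  by_contra z
  push Not at z
  have k := (Submodule.span_le (p := P'.sub (-(P'.ord g + 1 : ℤ)))).2 (by
    rintro _ ⟨f, ⟨f0, hf⟩, rfl⟩
    refine Or.inr ?_
    rw [← sub_eq_add_neg, sub_nonneg, Int.cast_le, ((h2 r m K K' L φ h).2.1 P' P e).2.1]
    exact z f f0 hf) ((h3 r m K K' L φ h).2.2.1 β g hg)
  have := k.resolve_left g0
  rw [← sub_eq_add_neg, sub_nonneg, Int.cast_le] at this
  omega

theorem ov_hor (hF : FLD) (hK : FF K (n + 1)) (h : Hor (fld (mx s)) R) (P : Pl K) :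
    Ov s R P ↔ Hor (fld (mx s)) P := by
  have k := fun P => (hF.cen n K hK _ P P (smp_mx s)).2.1
  exact ⟨fun e => (k P).2 fun Q => CLe.trans ((k R).1 h Q) e, fun e => (k P).1 e R⟩

/-- the pair `(Λ', Γ')` on the geometric generic fibre -/
structure Fib (n m : ℕ) (s : Finset K) (φ : K →+* K') (Λ Γ : BD K) (Λ' Γ' : BD K') : Prop where
  ff : FF K' (m + 1)
  rel : Rel m Λ' ∅ Γ'
  down : ∀ P', ∃ P, Lies φ P' P
  up : ∀ P, Hor (fld (mx s)) P → ∃ P', Lies φ P' P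
  val : ∀ P' P, Lies φ P' P → Hor (fld (mx s)) P ∧ (On m Λ' P' → On n Λ P) ∧
    ld (m + 1) Γ' P' = ld (n + 1) Γ P
  sec : ∀ (N : ℕ) (g : K'), Sc N Γ' All g → ∀ P' P, Lies φ P' P →
    ∃ f, Sc N Γ (Hor (fld (mx s))) f ∧ P.ord f - N * Γ P ≤ P'.ord g - N * Γ' P'

theorem gft (A : Ax) (hK : FF K (n + 1)) (h : Rel n Λ s Γ) (hR : Hor (fld (mx s)) R) :
    ∃ m ≤ n, ∃ (K' : Type) (_ : Field K') (_ : Algebra ℂ K') (φ : K →+* K') (Λ' Γ' : BD K'),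
      Fib n m s φ Λ Γ Λ' Γ' := by
  have hL := A.fld.ff _ K hK (mx s)
  obtain ⟨H, h1, h2, h3⟩ := A.fld.down _ K hK _ (smp_mx s)
  obtain ⟨K', _, _, φ, hφ⟩ := A.g1 K _ (cld_fld (mx s)) ⟨_, hL⟩
  obtain ⟨r, hr, hL'⟩ := Gm.ff_sub hK (fld (mx s))
  obtain ⟨m, e⟩ := Nat.exists_eq_add_of_le hr
  have D : GFd r m _ φ := ⟨hφ, e ▸ hK, hL'⟩
  obtain ⟨a1, a2, a3, -⟩ := A.g2 _ _ _ _ _ _ D
  have hK' := (A.g1b _ _ _ _ _ _ D).1
  obtain ⟨R', -⟩ := a3 R hR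
  obtain _ | m := m
  · exact (no_pl hK' R').elim
  obtain rfl : n = r + m := by omega
  obtain ⟨f, f0, hf⟩ := A.g4 _ _ _ _ _ _ D
  obtain ⟨-, b1, -, b2⟩ := A.g6 _ _ _ _ _ _ D H h1 h2
  have ok : Ok φ := fun P => Or.inr (a1 P)
  have c1 : pb φ (mx s) ∈ Prn K' := by
    have := ok.prn h3
    rwa [pb_sub, show pb φ (pb (inc _) H) = 0 from funext fun P => by
      obtain ⟨Q, z⟩ := a1 P
      rw [(a2 P Q z).2.2.1]
      exact Trv.pb (φ := inc (fld (mx s))) (fun a => (a2 P Q z).1 a.1 a.2) H, sub_zero] at this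
  have c2 : ∀ β ∈ Car K, Big β → Big (pb φ β) := fun β a b => (b1 β a).2 ⟨0, by simpa using b⟩
  have c3 : ∀ (β : BD K) (c : ℝ),
      (0 : ℝ) • mx ∅ - (pb φ β + dv f) - pb φ (c • mx s - β) ∈ Prn K' := fun β c => by
    rw [pb_sub, pb_smul, zero_smul, show 0 - (pb φ β + dv f) - (c • pb φ (mx s) - pb φ β) =
      -(dv f + c • pb φ (mx s)) by abel]
    exact neg_mem (add_mem (dv_mem_Prn f) (Submodule.smul_mem _ c c1))
  have c4 : ∀ (β : BD K) P' P, Lies φ P' P →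
      dsc (m + 1) (pb φ β + dv f) P' = dsc (r + m + 1) β P := fun β P' P z => by
    simp only [dsc, hf, Pi.sub_apply, Pi.add_apply, (a2 P' P z).2.2.1]
    exact add_sub_add_right_eq_sub _ _ _
  have c5 : ∀ P' P, Lies φ P' P → On m (pb φ Λ) P' → On (r + m) Λ P := fun P' P z =>
    ((b2 Λ h.pr.smp (h.ft.des.congr (by simpa using neg_mem h3))).2.2 m P' P rfl z).1
  have c6 : ∀ β, Bdy (r + m) Λ β → Bdy m (pb φ Λ) (pb φ β + dv f) := fun β a P' z => by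
    obtain ⟨P, w⟩ := a1 P'
    exact c4 β P' P w ▸ a P (c5 P' P w z)
  have c7 := ok.smp h.pr.smp
  have c8 := c2 Λ h.pr.smp.car h.pr.big
  obtain ⟨Γ₀, c₀, d1, d2, d3, d4⟩ := h.ft.ex
  obtain ⟨c, d5⟩ := h.nef
  refine ⟨m, by omega, K', _, _, φ, pb φ Λ, pb φ Γ + dv f, hK', ⟨⟨c7, c8,
    (ok.dsc h.pr.des).add_prn (dv_mem_Prn f), (ok.carQ h.pr.rat).add (carQ_dv f), c6 _ h.pr.bdy⟩,
    ⟨c7, c8, mx_empty (K := K') ▸ .zero c7, pb φ Γ₀ + dv f, 0, fun P' => ?_, c6 _ d2,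
      (ok.nef d3).congr (c3 _ _), (c2 _ d3.car d4).congr (c3 _ _)⟩,
    0, (ok.nef d5).congr (c3 _ _)⟩, a1, a3,
    fun P' P z => ⟨(a2 P' P z).1, c5 P' P z, by rw [ld, ld, c4 Γ P' P z]⟩, fun N g hg P' P z => ?_⟩
  · obtain ⟨P, w⟩ := a1 P'
    exact c4 Γ₀ P' P w ▸ d1 P
  have e1 : ∀ Q : Pl K', (Q.ord (g / f ^ N) : ℝ) = Q.ord g - N * dv f Q := fun Q => by
    rw [← dv_apply, dv_div hg.1 (pow_ne_zero N f0), dv_pow]
    rfl
  obtain ⟨a, a0, ha, w⟩ := gfd D A.g2 A.g3 (β := -((N : ℝ) • Γ)) (g := g / f ^ N) (Or.inr fun Q => by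
    have : N * (pb φ Γ Q + dv f Q) ≤ _ := hg.2 Q trivial
    rw [pb_neg, pb_smul]
    change 0 ≤ (Q.ord _ : ℝ) + -(N * pb φ Γ Q)
    rw [e1]
    linarith) (div_ne_zero hg.1 (pow_ne_zero N f0)) z
  refine ⟨a, ⟨a0, fun Q v => le_of_sub_nonneg (ha Q v)⟩, ?_⟩
  have := (Int.cast_le (R := ℝ)).2 w
  rw [e1] at this
  rw [Pi.add_apply, (a2 P' P z).2.2.1]
  linarith

end Vale.Agent.P283B.Asm
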