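import Vale.Agent.P283B.Spec
import Vale.Agent.P287D.Va.Fld
import Vale.Agent.P287D.On.Nor
import Vale.Agent.P287D.Pb.Abh

/-!
# P283B, block ASM: sections near a point of the base
-/

open Set Polynomial
open Vale.Agent.P297Z

noncomputable section

namespace Vale.Agent.P283B.Asm

open P287D

/-- centres are seen by sections (`On.cle_of_sec`) -/
def CSEC : Prop := ForK fun _ K _ _ => ∀ (β : BD K) (P Q : Pl K), CarQ β →
  (∀ (m : ℕ) (w : K), w ≠ 0 → Sec ((m : ℝ) • β) w → 0 < (dv w + (m : ℝ) • β) Q →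
    0 < (dv w + (m : ℝ) • β) P) → CLe β P Q

variable {K : Type} [Field K] [Algebra ℂ K] {n : ℕ} {β G G' : BD K} {s u : Finset K}
  {P R R₀ : Pl K} {f g : K}

/-- a member of a multiple of the system of the base which misses the centre of `R` -/
def Ms (s : Finset K) (R : Pl K) (G : BD K) : Prop :=
  ∃ (m : ℕ) (w : K), w ≠ 0 ∧ G = dv w + (m : ℝ) • mx s ∧ 0 ≤ G ∧ G R = 0

theorem Ms.zero : Ms s R 0 := ⟨0, 1, one_ne_zero, by simp, le_rfl, rfl⟩

theorem Ms.nn (h : Ms s R G) : 0 ≤ G := h.choose_spec.choose_spec.2.2.1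

theorem Ms.add (h : Ms s R G) (h' : Ms s R G') : Ms s R (G + G') := by
  obtain ⟨m, w, a, b, c, d⟩ := h
  obtain ⟨m', w', a', b', c', d'⟩ := h'
  refine ⟨m + m', w * w', mul_ne_zero a a', ?_, add_nonneg c c', by simp [d, d']⟩
  rw [b, b', dv_mul a a', Nat.cast_add, add_smul]
  abel

theorem Ms.nsmul (h : Ms s R G) (k : ℕ) : Ms s R ((k : ℝ) • G) := by
  induction k with
  | zero => simpa using Ms.zero
  | succ k ih => simpa [add_smul] using ih.add h

theorem Ms.dsc (h : Ms s R G) : Dsc (mx s) G := by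
  obtain ⟨m, w, -, rfl, -⟩ := h
  exact (Dsc.dv (smp_mx s) w).add ((Dsc.refl (smp_mx s)).smul _)

theorem Ms.eq (h : Ms s R G) (e : Ov s R P) : G P = 0 :=
  le_antisymm (not_lt.1 fun z => (CLe.pos e h.dsc h.nn z).ne' h.choose_spec.choose_spec.2.2.2)
    (h.nn P)

theorem exists_ms (hC : CSEC) (hK : FF K n) (h : ¬ Ov s R P) : ∃ G, Ms s R G ∧ 0 < G P := by
  by_contra e
  refine h (hC n K hK _ _ _ (carQ_mx s) fun m w w0 hw z => by_contra fun v => e ?_)
  have k := hw.resolve_left w0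
  exact ⟨_, ⟨m, w, w0, rfl, k, le_antisymm (not_lt.1 v) (k R)⟩, z⟩

/-- **SPG**: a divisor which is effective near the point becomes effective -/
theorem spg (hM : MOD) (hN : NEG) (hC : CSEC) (hK : FF K (n + 1)) (hβ : β ∈ Car K)
    (h : ∀ P, Ov s R P → 0 ≤ β P) : ∃ G, Ms s R G ∧ 0 ≤ β + G := by
  obtain ⟨u, Γ, t, -, -, d, -⟩ := hM.ex n K hK ∅ {β, mx s} finite_empty (toFinite _)
    (insert_subset hβ (singleton_subset_iff.2 (mx_mem_Car s)))
  have k : ∀ T : Set (Pl K), T.Finite → ∃ G, Ms s R G ∧ ∀ P ∈ T, 0 ≤ (β + G) P := fun T hT => by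
    induction T, hT using Set.Finite.induction_on with
    | empty => exact ⟨0, .zero, fun _ z => z.elim⟩
    | @insert P T _ _ ih =>
      obtain ⟨G, a, b⟩ := ih
      by_cases e : Ov s R P
      · exact ⟨G, a, forall_mem_insert.2 ⟨add_nonneg (h P e) (a.nn P), b⟩⟩
      obtain ⟨G', a', b'⟩ := exists_ms hC hK e
      obtain ⟨k, hk⟩ := exists_nat_ge (-β P / G' P)
      rw [div_le_iff₀ b'] at hk
      refine ⟨_, a.add (a'.nsmul k), forall_mem_insert.2 ⟨?_, fun Q z => ?_⟩⟩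
      · have : 0 ≤ G P := a.nn P
        change 0 ≤ β P + (G P + k * G' P)
        linarith
      · rw [← add_assoc]
        exact add_nonneg (b Q z) ((a'.nsmul k).nn Q)
  obtain ⟨G, a, b⟩ := k _ ((hM.isb n K hK).1 β hβ u t.big)
  refine ⟨G, a, (hN.nn n K hK _ _ t.smp t.big ((d β (by simp)).add
    ((d _ (by simp)).trans a.dsc)) fun P z => ?_).1⟩
  by_cases e : β P = 0
  · rw [Pi.add_apply, e, zero_add]
    exact a.nn P
  · exact b P ⟨z, e⟩

theorem exists_ch (h : Nz s) (R : Pl K) : ∃ f ∈ s, f ≠ 0 ∧ ∀ P, Ov s R P → (dv f + mx s) P = 0 := by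
  obtain ⟨f, hf, f0, e⟩ := R.exists_mz h
  exact ⟨f, hf, f0, fun P z => CLe.zero z ((sec_of_mem hf).rep f0) (by simp [dv, mx, e])⟩

/-- the local equation of a member -/
theorem Ms.eqn (h : Ms s R G) (hf : f ∈ s) (f0 : f ≠ 0) : ∃ a ∈ fld (mx s), a ≠ 0 ∧
    ∀ P : Pl K, (dv f + mx s) P = 0 → (P.ord a : ℝ) = G P := by
  obtain ⟨m, w, a, rfl, c, -⟩ := h
  have k := sec_of_mem hf
  refine ⟨w / f ^ m, ?_, div_ne_zero a (pow_ne_zero m f0), fun P z => ?_⟩
  · have := (Sec.mul (Or.inr c) k).div_mem ((k.pow m).mul k)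
    rwa [mul_div_mul_right _ _ f0, show (m : ℝ) • mx s + mx s = ((m : ℝ) + 1) • mx s by
      rw [add_smul, one_smul], fld_smul (by positivity)] at this
  · rw [← dv_apply, dv_div a (pow_ne_zero m f0), dv_pow]
    simp only [Pi.add_apply, Pi.sub_apply, Pi.smul_apply, smul_eq_mul] at z ⊢
    linear_combination -(m : ℝ) * z

theorem ov_congr (e : mx u = mx s) : Ov u = Ov s := by
  unfold Ov
  rw [e]

theorem spr (hM : MOD) (hN : NEG) (hC : CSEC) : SPR := fun n K _ _ hK β s R₀ R g hβ e g0 h => by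
  obtain ⟨u, hu, eu⟩ := exists_nz s
  rw [← ov_congr eu] at e h ⊢
  rw [← eu]
  obtain ⟨G, a, b⟩ := spg hM hN hC hK (s := u) (R := R) (add_mem (dv_mem_Car g) hβ) h
  obtain ⟨f, hf, f0, c⟩ := exists_ch hu R₀
  obtain ⟨w, hw, w0, d⟩ := a.eqn hf f0
  refine ⟨w, hw, w0, fun P z => ?_, fun P z => ?_⟩
  · have := d P (c P (CLe.trans e z))
    rw [a.eq z] at this
    exact_mod_cast this
  · have : 0 ≤ (P.ord g : ℝ) + β P + G P := b P
    rw [Pl.ord_mul _ w0 g0, Int.cast_add, d P (c P z)]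
    linarith

open Pointwise in
theorem exists_le (hβ : β ∈ Car K) : ∃ u : Finset K, 1 ∈ u ∧ β ≤ mx u := by
  classical
  suffices k : ∃ u : Finset K, 1 ∈ u ∧ β ≤ mx u ∧ -β ≤ mx u from let ⟨u, a, b, _⟩ := k; ⟨u, a, b⟩
  refine Car.ind (p := fun β => ∃ u : Finset K, 1 ∈ u ∧ β ≤ mx u ∧ -β ≤ mx u) hβ
    (fun s ⟨f, hf, f0⟩ => ?_) ?_ ?_
  · refine ⟨insert 1 (insert f⁻¹ s), by simp, mx_mono ⟨f, hf, f0⟩ fun a z => by simp [z], ?_⟩
    have a := dv_add_mx_nonneg hf f0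
    have b := dv_add_mx_nonneg (s := insert 1 (insert f⁻¹ s)) (f := f⁻¹) (by simp) (inv_ne_zero f0)
    rw [dv_inv] at b
    exact (neg_le_iff_add_nonneg.2 a).trans (le_neg_add_iff_le.1 b)
  · rintro a b - - ⟨u, h1, h2, h3⟩ ⟨v, k1, k2, k3⟩
    refine ⟨u * v, by simpa using Finset.mul_mem_mul h1 k1, ?_⟩
    rw [mx_mul ⟨1, h1, one_ne_zero⟩ ⟨1, k1, one_ne_zero⟩, neg_add]
    exact ⟨add_le_add h2 k2, add_le_add h3 k3⟩
  · rintro c a - ⟨u, h1, h2, h3⟩
    obtain ⟨k, hk⟩ := exists_nat_ge |c|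
    refine ⟨u ^ k, by simpa using Finset.pow_mem_pow (n := k) h1, ?_⟩
    rw [mx_pow ⟨1, h1, one_ne_zero⟩]
    have z : ∀ P, |c * a P| ≤ k * mx u P := fun P => by
      rw [abs_mul]
      exact mul_le_mul hk (abs_le'.2 ⟨h2 P, h3 P⟩) (abs_nonneg _) (Nat.cast_nonneg k)
    exact ⟨fun P => (abs_le'.1 (z P)).1, fun P => (abs_le'.1 (z P)).2⟩

theorem ff_rat (hK : FF K n) : FF (RatFunc K) (n + 1) := by
  have := hK.ess
  have : Algebra.EssFiniteType K[X] (RatFunc K) := .of_isLocalization _ (nonZeroDivisors K[X])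
  have : Algebra.EssFiniteType K (RatFunc K) := .comp K K[X] _
  have : Algebra.EssFiniteType ℂ (RatFunc K) := .comp ℂ K _
  have : Algebra.IsAlgebraic K[X] (RatFunc K) := IsLocalization.isAlgebraic _ (nonZeroDivisors K[X])
  refine Gm.ff_of_ess ?_
  rw [← trdeg_add_eq ℂ K, ← trdeg_add_eq K K[X], hK.trdeg, Polynomial.trdeg_of_isDomain,
    trdeg_eq_zero (R := K[X])]
  simp

/-- the sections of `O(1)` over an affine base are a finite module -/
theorem fin_sec (hK : FF K n) {B : Subalgebra ℂ K} (hB : B.FG) (h1 : 1 ∈ u) {M : Set K}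
    (hM : ∀ g ∈ M, ∀ P : Pl K, (∀ a ∈ B, a ∈ P.ring) → ∃ f ∈ u, f ≠ 0 ∧ g / f ∈ P.ring) :
    ∃ s : Finset K, (s : Set K) ⊆ M ∧ ∀ g ∈ M, g ∈ Submodule.span B (s : Set K) := by
  classical
  obtain ⟨T, hT, rfl⟩ := Subalgebra.fg_def.1 hB
  have hK' := ff_rat hK
  let ι := IsScalarTower.toAlgHom ℂ K[X] (RatFunc K)
  let γ : K →ₐ[ℂ] RatFunc K := IsScalarTower.toAlgHom ℂ K (RatFunc K)
  have hγ : ∀ a, γ a = ι (C a) := fun a => rfl
  let A₀ := Algebra.adjoin ℂ (C '' T ∪ (fun f => X * C f) '' (u : Set K))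
  have a0 : ∀ a ∈ A₀, a.coeff 0 ∈ Algebra.adjoin ℂ T := fun a z => by
    induction z using Algebra.adjoin_induction with
    | mem x hx =>
      obtain ⟨b, hb, rfl⟩ | ⟨b, -, rfl⟩ := hx
      · simpa using Algebra.subset_adjoin hb
      · simp
    | algebraMap r => simp
    | add x y _ _ a b => simpa using add_mem a b
    | mul x y _ _ a b => simpa using mul_mem a b
  have a1 : (A₀.map ι).FG := Subalgebra.FG.map _
    (Subalgebra.fg_def.2 ⟨_, (hT.image _).union (u.finite_toSet.image _), rfl⟩)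
  have a2 : ∀ f ∈ u, ι (X * C f) ∈ A₀.map ι := fun f z =>
    ⟨_, Algebra.subset_adjoin (Or.inr ⟨f, z, rfl⟩), rfl⟩
  have a3 : ∀ a ∈ Algebra.adjoin ℂ T, γ a ∈ A₀.map ι :=
    Algebra.adjoin_le (S := (A₀.map ι).comap γ) fun a z =>
      ⟨_, Algebra.subset_adjoin (Or.inl ⟨a, z, rfl⟩), rfl⟩
  generalize hA : A₀.map ι = A at a1 a2 a3
  have a4 : ∀ g ∈ M, IsIntegral A (ι (X * C g)) := fun g z => by
    by_contra e
    obtain ⟨P, p1, p2⟩ := On.val hK' a1 e
    refine p2 ?_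
    rcases hK'.ok γ P with t | ⟨Q, t⟩
    · have := mul_mem (p1 _ (a2 1 h1)) (t g)
      rwa [map_one, mul_one, RingHom.coe_coe, hγ, ← map_mul] at this
    · obtain ⟨f, hf, f0, w⟩ := hM g z Q fun a v => (t a).2 (p1 _ (a3 a v))
      have := mul_mem (p1 _ (a2 f hf)) ((t _).1 w)
      rwa [RingHom.coe_coe, hγ, ← map_mul, mul_assoc, ← map_mul, mul_div_cancel₀ _ f0] at this
  have a5 := On.fg_of_int hK' a1 (A := (integralClosure A (RatFunc K)).restrictScalars ℂ)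
    (fun a z => (integralClosure A _).algebraMap_mem ⟨a, z⟩) fun _ z => z
  have : Algebra.FiniteType ℂ A := (Subalgebra.fg_iff_finiteType _).1 a1
  have : IsNoetherianRing A := Algebra.FiniteType.isNoetherianRing ℂ A
  have : Algebra.FiniteType ℂ (integralClosure A (RatFunc K)) :=
    (Subalgebra.fg_iff_finiteType _).1 a5
  have : Algebra.FiniteType A (integralClosure A (RatFunc K)) := .of_restrictScalars_finiteType ℂ _ _
  have : Module.Finite A (integralClosure A (RatFunc K)) := Algebra.IsIntegral.finite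
  obtain ⟨s, s1, s2⟩ := (Submodule.fg_span_iff_fg_span_finset_subset _).1
    ((Submodule.fg_range (integralClosure A (RatFunc K)).val.toLinearMap).of_le
      (Submodule.span_le (s := (fun g => ι (X * C g)) '' M).2 (by
        rintro _ ⟨g, z, rfl⟩
        exact ⟨⟨_, a4 g z⟩, rfl⟩)))
  obtain ⟨s, s3, rfl⟩ := Finset.subset_set_image_iff.1 s1
  refine ⟨s, s3, fun g z => ?_⟩
  have k : ∀ y ∈ Submodule.span A (s.image fun g => ι (X * C g) : Set (RatFunc K)), ∃ q : K[X],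
      y = ι (X * q) ∧ q.coeff 0 ∈ Submodule.span (Algebra.adjoin ℂ T) (s : Set K) := fun y w => by
    induction w using Submodule.span_induction with
    | mem x hx =>
      obtain ⟨b, hb, rfl⟩ := Finset.mem_image.1 hx
      exact ⟨_, rfl, by simpa using Submodule.subset_span hb⟩
    | zero => exact ⟨0, by simp, by simp⟩
    | add x y _ _ a b =>
      obtain ⟨p, rfl, a⟩ := a
      obtain ⟨q, rfl, b⟩ := b
      exact ⟨p + q, by rw [mul_add, map_add], by simpa using add_mem a b⟩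
    | smul r x _ a =>
      obtain ⟨p, rfl, a⟩ := a
      obtain ⟨r, hr⟩ := r
      obtain ⟨r, w, rfl⟩ : r ∈ A₀.map ι := hA ▸ hr
      refine ⟨r * p, ?_, ?_⟩
      · rw [mul_left_comm, map_mul ι r]
        rfl
      · rw [mul_coeff_zero]
        exact Submodule.smul_mem _ (⟨_, a0 r w⟩ : Algebra.adjoin ℂ T) a
  obtain ⟨q, e, w⟩ := k _ (s2.le (Submodule.subset_span ⟨g, z, rfl⟩))
  rwa [← mul_left_cancel₀ X_ne_zero (RatFunc.algebraMap_injective K e), coeff_C_zero] at w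

theorem fgen (hM : MOD) (hN : NEG) (hC : CSEC) : FGEN := fun n K _ _ hK β s R₀ hβ => by
  obtain ⟨s', hs, eu⟩ := exists_nz s
  rw [← ov_congr eu]
  obtain ⟨f, hf, f0, c⟩ := exists_ch hs R₀
  obtain ⟨u, h1, hu⟩ := exists_le hβ
  have b : ∀ P : Pl K, (dv f + mx s') P = 0 ↔ ∀ a ∈ Algebra.adjoin ℂ ((· / f) '' s'), a ∈ P.ring :=
    fun P => by
    refine ⟨fun e => Algebra.adjoin_le (S := { P.ring.toSubring with algebraMap_mem' := P.con }) ?_,
      fun e => ?_⟩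
    · rintro _ ⟨g, hg, rfl⟩
      refine pld_eq_zero.1 (le_antisymm ?_ (pld_nonneg _ P))
      exact (pld_div_le (sec_of_mem hg) (sec_of_mem hf) f0 P).trans ((add_comm _ _).trans e).le
    · rw [Pi.add_apply, dv_apply, mx_apply, P.mz_eq hf f0 fun g hg g0 => by
        have := Pl.ord_nonneg_of_mem _ (e _ (Algebra.subset_adjoin ⟨g, hg, rfl⟩))
        rw [Pl.ord_div _ g0 f0] at this
        omega]
      simp
  obtain ⟨t, t1, t2⟩ := fin_sec hK (Subalgebra.fg_def.2 ⟨_, s'.finite_toSet.image (· / f), rfl⟩) h1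
    (M := {g | g ≠ 0 ∧ ∀ P : Pl K, (dv f + mx s') P = 0 → 0 ≤ P.ord g + β P}) fun g z P e => by
      obtain ⟨a, ha, a0, w⟩ := P.exists_mz ⟨1, h1, one_ne_zero⟩
      refine ⟨a, ha, a0, (Pl.ord_nonneg_iff _ (div_ne_zero z.1 a0)).1 ?_⟩
      have h2 := (z.2 P ((b P).2 e)).trans (add_le_add le_rfl (hu P))
      rw [mx_apply, w] at h2
      rw [Pl.ord_div _ z.1 a0]
      exact_mod_cast h2
  refine ⟨t, fun a z => ⟨(t1 z).1, fun P e => (t1 z).2 P (c P e)⟩, fun g g0 h P e => ?_⟩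
  obtain ⟨G, a, d⟩ := spg hM hN hC hK (s := s') (R := R₀) (add_mem (dv_mem_Car g) hβ) h
  obtain ⟨w, -, w0, d'⟩ := a.eqn hf f0
  have k := t2 (w * g) ⟨mul_ne_zero w0 g0, fun Q z => by
    have : 0 ≤ (Q.ord g : ℝ) + β Q + G Q := d Q
    rw [Pl.ord_mul _ w0 g0, Int.cast_add, d' Q z]
    linarith⟩
  by_contra v
  push Not at v
  have k' : ∀ y ∈ Submodule.span (Algebra.adjoin ℂ ((· / f) '' s')) (t : Set K),
      y = 0 ∨ P.ord g < P.ord y := fun y z => by
    induction z using Submodule.span_induction with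
    | mem x hx => exact Or.inr (v x hx)
    | zero => exact Or.inl rfl
    | add x y _ _ a b =>
      have h1 : ∀ y : K, y ∈ P.sub (-(P.ord g + 1 : ℤ)) ↔ y = 0 ∨ P.ord g < P.ord y := fun y => by
        rw [Pl.mem_sub, ← sub_eq_add_neg, sub_nonneg, Int.cast_le, Int.add_one_le_iff]
      exact (h1 _).1 (add_mem ((h1 _).2 a) ((h1 _).2 b))
    | smul r x _ a =>
      refine or_iff_not_imp_left.2 fun z => ?_
      have z' : (r : K) * x ≠ 0 := z
      have h1 := Pl.ord_nonneg_of_mem _ ((b P).1 (c P e) _ r.2)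
      have h2 := a.resolve_left (right_ne_zero_of_mul z')
      change _ < P.ord ((r : K) * x)
      rw [Pl.ord_mul _ (left_ne_zero_of_mul z') (right_ne_zero_of_mul z')]
      omega
  have h2 := (k' _ k).resolve_left (mul_ne_zero w0 g0)
  have h3 := d' P (c P e)
  rw [a.eq e] at h3
  rw [Pl.ord_mul _ w0 g0, show P.ord w = 0 by exact_mod_cast h3, zero_add] at h2
  exact lt_irrefl _ h2

end Vale.Agent.P283B.Asm
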