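import Vale.Agent.P283B.Asm.Gft

/-!
# P283B, block ASM: complements over any point, klt complements
-/

open Set
open Vale.Agent.P297Z

noncomputable section

namespace Vale.Agent.P283B.Asm

open P287D

variable {K : Type} [Field K] [Algebra ℂ K] {n N M : ℕ} {Λ Γ : BD K} {s : Finset K} {R P : Pl K}
  {U : Pl K → Prop} {g : K}

theorem ord_pow' (P : Pl K) (g : K) (k : ℕ) : (P.ord (g ^ k) : ℝ) = k * P.ord g :=
  congrFun (dv_pow g k) P

theorem sc_pow (h : Sc N Γ U g) (k : ℕ) : Sc (k * N) Γ U (g ^ k) :=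
  ⟨pow_ne_zero k h.1, fun P z => by
    rw [ord_pow', Nat.cast_mul, mul_assoc]
    exact mul_le_mul_of_nonneg_left (h.2 P z) (Nat.cast_nonneg k)⟩

theorem lcc_dvd (h : LcC n N Γ U g) (e : N ∣ M) : ∃ g, LcC n M Γ U g := by
  obtain ⟨k, rfl⟩ := e
  refine ⟨g ^ k, mul_comm k N ▸ sc_pow h.1 k, fun P z => ?_⟩
  rw [ord_pow', Nat.cast_mul, mul_comm (N : ℝ), mul_assoc]
  exact mul_le_mul_of_nonneg_left (h.2 P z) (Nat.cast_nonneg k)

/-- a section of `-N Γ` near `P` of order at most `N (cn + 1) - a` along `P` -/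
def Pt (n N : ℕ) (Γ : BD K) (U : Pl K → Prop) (P : Pl K) (r : ℝ → ℝ → Prop) : Prop :=
  ∃ g, Sc N Γ U g ∧ r (P.ord g) (N * (cn K (n + 1) P + 1))

theorem Pt.dvd (h : Pt n N Γ U P (· < ·)) (e : N ∣ M) (h0 : 0 < M) : Pt n M Γ U P (· < ·) := by
  obtain ⟨k, rfl⟩ := e
  obtain ⟨g, a, b⟩ := h
  refine ⟨g ^ k, mul_comm k N ▸ sc_pow a k, ?_⟩
  rw [ord_pow', Nat.cast_mul, mul_comm (N : ℝ), mul_assoc]
  exact mul_lt_mul_of_pos_left b (Nat.cast_pos.2 (Nat.pos_of_mul_pos_left h0))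

/-- one general section in place of one section for each place -/
theorem fin (A : Ax) (hB : BERT) (hK : FF K (n + 1)) (h : Pr n Λ Γ) (h0 : 0 < N)
    {r : ℝ → ℝ → Prop} (hr : ∀ a b c, a ≤ b → r b c → r a c ∧ b ≤ c)
    (hp : ∀ P, Ov s R P → Pt n N Γ (Ov s P) P r) :
    ∃ g, Sc N Γ (Ov s R) g ∧ ∀ P, Ov s R P → ∃ P' a, r a (N * (cn K (n + 1) P' + 1)) ∧
      min (N * (cn K (n + 1) P' + 1) - a) (N - 1) ≤ N * (cn K (n + 1) P + 1) - P.ord g := by
  have hβ : -((N : ℝ) • Γ) ∈ Car K := neg_mem (Submodule.smul_mem _ _ h.des.car)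
  have N0 : (0 : ℝ) < N := Nat.cast_pos.2 h0
  obtain ⟨u, u1, u2⟩ := fgen A.mod A.neg A.csec n K hK _ s R hβ
  have k : ∀ P, Ov s R P → ∃ f ∈ u, r (P.ord f) (N * (cn K (n + 1) P + 1)) := fun P z => by
    obtain ⟨g, a, b⟩ := hp P z
    obtain ⟨w, -, w0, c, d⟩ := spr A.mod A.neg A.csec n K hK _ s R P g hβ z a.1
      fun Q v => sub_nonneg.2 (a.2 Q v)
    obtain ⟨f, hf, e⟩ := u2 _ (mul_ne_zero w0 a.1) d P z
    rw [Pl.ord_mul _ w0 a.1, c P (CLe.refl _ _), zero_add] at e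
    exact ⟨f, hf, (hr _ _ _ (Int.cast_le.2 e) b).1⟩
  have k' : ∀ P, Ov s R P → r (-mx u P) (N * (cn K (n + 1) P + 1)) := fun P z => by
    obtain ⟨f, hf, e⟩ := k P z
    exact (hr _ _ _ (neg_le_iff_add_nonneg.2 (dv_add_mx_nonneg hf (u1 f hf).1 P)) e).1
  have l : ∀ P, N * ld (n + 1) (-(N : ℝ)⁻¹ • mx u) P = N * (cn K (n + 1) P + 1) - -mx u P :=
    fun P => by
    simp only [ld, dsc, Pi.sub_apply, Pi.smul_apply, smul_eq_mul]
    field_simp
    ring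
  obtain ⟨f, hf, -⟩ := k R (CLe.refl _ _)
  obtain ⟨g, g1, g0, -, -, g2⟩ := hB n K hK Λ (mx s) (-(N : ℝ)⁻¹ • mx u) u ∅ h.smp h.big (smp_mx s)
    (Submodule.smul_mem _ _ (mx_mem_Car u)) ⟨f, hf, (u1 f hf).1⟩ finite_empty
  refine ⟨g, ⟨g0, fun P z => sub_nonneg.1 ?_⟩, fun P z => ?_⟩
  · exact ((Submodule.span_le (p := P.sub (-(N * Γ P)))).2
      (fun f hf => Or.inr ((u1 f hf).2 P z)) g1).resolve_left g0
  obtain ⟨P', a, b⟩ := g2 (N : ℝ)⁻¹ P (by positivity) (inv_le_one_of_one_le₀ (Nat.one_le_cast.2 h0))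
    fun Q v => nonneg_of_mul_nonneg_right (by
      rw [l, sub_nonneg]
      exact (hr _ _ _ le_rfl (k' Q (CLe.trans z v))).2) N0
  refine ⟨P', _, k' P' (CLe.trans z a), ?_⟩
  have c := mul_le_mul_of_nonneg_left b N0.le
  rw [mul_min_of_nonneg _ _ N0.le, l, mul_sub, mul_one, mul_inv_cancel₀ N0.ne'] at c
  refine c.trans_eq ?_
  simp only [ld, dsc, Pi.sub_apply, Pi.add_apply, Pi.smul_apply, smul_eq_mul, dv_apply]
  field_simp
  ring

theorem slc (A : Ax) (hB : BERT) : SLC := fun n hG hV q hq => by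
  obtain ⟨N, N0, hN⟩ := hV q hq
  choose! M M0 hM using fun m h => hG m h q hq
  have p0 : 0 < ∏ m ∈ Finset.range (n + 1), M m :=
    Finset.prod_pos fun m z => M0 m (Nat.lt_succ_iff.1 (Finset.mem_range.1 z))
  refine ⟨_, Nat.mul_pos N0 p0, fun K _ _ hK Λ Γ s R h hc he => ?_⟩
  by_cases hR : Hor (fld (mx s)) R
  swap
  · obtain ⟨g, hg⟩ := hN K hK Λ Γ s R h hR hc he
    exact lcc_dvd hg (dvd_mul_right _ _)
  obtain ⟨m, hm, K', _, _, φ, Λ', Γ', F⟩ := gft A hK h hR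
  have o := ov_hor A.fld hK hR
  obtain ⟨g', a⟩ := hM m hm K' F.ff Λ' Γ' F.rel
    (fun P' z _ => by
      obtain ⟨P, w⟩ := F.down P'
      obtain ⟨v1, v2, v3⟩ := F.val P' P w
      exact v3 ▸ hc P (v2 z) ((o P).2 v1))
    fun P' _ => by
      obtain ⟨P, w⟩ := F.down P'
      obtain ⟨v1, -, v3⟩ := F.val P' P w
      exact v3 ▸ he P ((o P).2 v1)
  obtain ⟨g, b, c⟩ := fin A hB hK h.pr (M0 m hm) (r := (· ≤ ·)) (fun _ _ _ x y => ⟨x.trans y, y⟩)
    (s := s) (R := R) fun P z => by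
      obtain ⟨P', w⟩ := F.up P ((o P).1 z)
      obtain ⟨f, x, y⟩ := F.sec _ g' a.1 P' P w
      refine ⟨f, ⟨x.1, fun Q v => x.2 Q ((o Q).1 (CLe.trans z v))⟩, ?_⟩
      have e1 := congrArg ((M m : ℝ) * ·) (F.val P' P w).2.2
      have e2 := a.2 P' trivial
      simp only [ld, dsc, Pi.sub_apply] at e1
      linarith
  refine lcc_dvd (g := g) ⟨b, fun P z => ?_⟩ (Dvd.dvd.mul_left
    (Finset.dvd_prod_of_mem M (Finset.mem_range.2 (Nat.lt_succ_iff.2 hm))) _)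
  obtain ⟨P', x, y, w⟩ := c P z
  exact sub_nonneg.1 ((le_min (sub_nonneg.2 y)
    (sub_nonneg.2 (Nat.one_le_cast.2 (M0 m hm)))).trans w)

theorem phi_of {q : ℕ} {x : ℝ} (hq : 0 < q) (h : x ∈ Frq q) (h0 : 0 ≤ x) (h1 : x ≤ 1) :
    x ∈ Phi q := by
  obtain ⟨j, rfl⟩ := h
  have q0 : (0 : ℝ) < q := Nat.cast_pos.2 hq
  have a : 0 ≤ j := by exact_mod_cast (div_nonneg_iff.1 h0).elim (·.1) fun z => absurd z.2 q0.not_ge
  have b : j ≤ q := by exact_mod_cast (div_le_one q0).1 h1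
  obtain ⟨i, rfl⟩ := Int.eq_ofNat_of_zero_le a
  refine ⟨q - i, 1, Nat.sub_le _ _, one_pos, ?_⟩
  rw [Nat.cast_sub (by exact_mod_cast b)]
  field_simp
  simp

theorem sq1 (A : Ax) (hB : BERT) : SQ1 := fun C n hC hS hL ε q e0 hq => by
  obtain ⟨k, k0, hk⟩ := hL ε q e0 hq
  obtain ⟨N, N0, hN⟩ := hC (q * k) (Nat.mul_pos hq k0)
  choose! M M0 hM using fun m h => hS m h ε q e0 hq
  have p0 : 0 < 2 * (k * N * ∏ m ∈ Finset.range (n + 1), M m) := Nat.mul_pos two_pos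
    (Nat.mul_pos (Nat.mul_pos k0 N0)
      (Finset.prod_pos fun m z => M0 m (Nat.lt_succ_iff.1 (Finset.mem_range.1 z))))
  refine ⟨_, p0, fun K _ _ hK Λ Γ s R h hb hc he => ?_⟩
  obtain ⟨g, a, b⟩ := fin A hB hK h.pr p0 (r := (· < ·)) (fun _ _ _ x y => ⟨x.trans_lt y, y.le⟩)
    (s := s) (R := R) fun P z => by
      have hc' : Cf n Λ Γ (Frq q) (Ov s P) := fun Q x y => hc Q x (CLe.trans z y)
      have he' : ELc n ε Γ (Ov s P) := fun Q y => he Q (CLe.trans z y)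
      by_cases hP : Hor (fld (mx s)) P
      · obtain ⟨m, hm, K', _, _, φ, Λ', Γ', F⟩ := gft A hK h hP
        have o := ov_hor A.fld hK hP
        obtain ⟨u, u0, hu⟩ := hM m hm K' F.ff Λ' Γ' F.rel
          (fun P' _ => by
            obtain ⟨Q, w⟩ := F.down P'
            obtain ⟨v1, -, v3⟩ := F.val P' Q w
            exact v3 ▸ he' Q ((o Q).2 v1))
          fun P' x _ => by
            obtain ⟨Q, w⟩ := F.down P'
            obtain ⟨v1, v2, v3⟩ := F.val P' Q w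
            exact v3 ▸ hc' Q (v2 x) ((o Q).2 v1)
        obtain ⟨P', w⟩ := F.up P hP
        obtain ⟨f', f1, f0, f2⟩ := P'.exists_mz u0
        obtain ⟨f, x, y⟩ := F.sec (M m) f' ⟨f0, fun Q _ => by
          have : 0 ≤ (Q.ord f' : ℝ) + M m * -Γ' Q := (hu ▸ dv_add_mx_nonneg f1 f0) Q
          linarith⟩ P' P w
        refine Pt.dvd (N := M m) ⟨f, ⟨x.1, fun Q v => x.2 Q ((o Q).1 v)⟩, ?_⟩
          (((Finset.dvd_prod_of_mem M (Finset.mem_range.2
            (Nat.lt_succ_iff.2 hm))).mul_left _).mul_left _) p0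
        have e1 : (P'.mz u : ℝ) = M m * -Γ' P' := congrFun hu P'
        have e2 := mul_pos (Nat.cast_pos (α := ℝ).2 (M0 m hm)) (e0.trans_le (he' P (CLe.refl _ _)))
        rw [f2, Int.cast_neg] at e1
        simp only [ld, dsc, Pi.sub_apply] at e2
        linarith
      obtain ⟨t, -, t0, t1, t2⟩ := hk K hK Λ Γ s P h (hb P z) hP hc' he'
      obtain ⟨G, g1, g2⟩ := spg A.mod A.neg A.csec hK (s := s) (R := P) (dv_mem_Car t)
        fun Q v => Int.cast_nonneg_iff.2 (t2 Q v).1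
      have k1 : (0 : ℝ) < k := Nat.cast_pos.2 k0
      have l : ∀ Q, ld (n + 1) (Γ + (k : ℝ)⁻¹ • (dv t + G)) Q =
          ld (n + 1) Γ Q - (k : ℝ)⁻¹ * (dv t + G) Q := fun Q => by
        simp only [ld, dsc, Pi.sub_apply, Pi.add_apply, Pi.smul_apply, smul_eq_mul]
        ring
      have l0 : ∀ Q, Ov s P Q → (dv t + G) Q = Q.ord t := fun Q v => by
        rw [Pi.add_apply, g1.eq v, add_zero, dv_apply]
      have l1 : ELc n 0 (Γ + (k : ℝ)⁻¹ • (dv t + G)) (Ov s P) := fun Q v => by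
        rw [l, l0 Q v, sub_nonneg, inv_mul_le_iff₀ k1]
        exact (t2 Q v).2
      have l2 : Bdy n Λ (Γ + (k : ℝ)⁻¹ • (dv t + G)) := fun Q v => by
        have e1 := l Q
        have e2 := h.pr.bdy Q v
        have e3 := mul_nonneg (inv_pos.2 k1).le (g2 Q)
        simp only [ld] at e1
        linarith
      obtain ⟨m, w, w0, eG, -⟩ := id g1
      obtain ⟨c, hn⟩ := h.nef
      obtain ⟨f, x, y⟩ := hN K hK Λ (Γ + (k : ℝ)⁻¹ • (dv t + G)) s P
        ⟨⟨h.pr.smp, h.pr.big, h.pr.des.add (((Dsc.dv h.pr.smp t).add (h.ft.des.trans g1.dsc)).smul _),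
          h.pr.rat.add (by
            have := ((carQ_dv t).add ((carQ_dv w).add
              (CarZ.carQ (CarZ.nsmul (mx_mem_CarZ s) m)))).qsmul (k : ℚ)⁻¹
            rwa [← eG, Rat.cast_inv, Rat.cast_natCast] at this), l2⟩, h.ft, c + (k : ℝ)⁻¹ * m,
          hn.congr (by
            rw [eG, show (c + (k : ℝ)⁻¹ * m) • mx s - (Γ + (k : ℝ)⁻¹ • (dv t + (dv w + (m : ℝ) • mx s)))
              - (c • mx s - Γ) = -(k : ℝ)⁻¹ • (dv t + dv w) by module]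
            exact Submodule.smul_mem _ _ (add_mem (dv_mem_Prn t) (dv_mem_Prn w)))⟩
        (fun Q v v' => phi_of (Nat.mul_pos hq k0) (by
            obtain ⟨j, hj⟩ := hc' Q v v'
            refine ⟨j * k + q * Q.ord t, ?_⟩
            have q0 : (0 : ℝ) < q := Nat.cast_pos.2 hq
            rw [l, l0 Q v', ← sub_add, hj]
            push_cast
            field_simp) (by simpa [ld] using l2 Q v) (sub_le_self _ (l1 Q v'))) l1
      have e1 : ∀ Q : Pl K, (Q.ord (f ^ k / t ^ N) : ℝ) = k * Q.ord f - N * Q.ord t := fun Q => by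
        rw [Pl.ord_div _ (pow_ne_zero k x.1) (pow_ne_zero N t0), Int.cast_sub, ord_pow', ord_pow']
      refine Pt.dvd (N := k * N) ⟨f ^ k / t ^ N,
        ⟨div_ne_zero (pow_ne_zero k x.1) (pow_ne_zero N t0), fun Q v => ?_⟩, ?_⟩
        ((dvd_mul_right _ _).mul_left _) p0
      · have e2 : k * (N * (Γ Q + (k : ℝ)⁻¹ * (dv t + G) Q)) ≤ _ :=
          mul_le_mul_of_nonneg_left (x.2 Q v) k1.le
        rw [l0 Q v, mul_left_comm, mul_add, mul_inv_cancel_left₀ k1.ne'] at e2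
        rw [e1, Nat.cast_mul]
        linarith
      · have e2 := mul_le_mul_of_nonneg_left (y P (CLe.refl _ _)) k1.le
        have e3 := mul_pos (Nat.cast_pos (α := ℝ).2 N0) (Int.cast_pos (R := ℝ).2 t1)
        rw [e1, Nat.cast_mul]
        linarith
  refine ⟨g, a, fun P z => ?_⟩
  obtain ⟨P', x, y, w⟩ := b P z
  refine sub_pos.1 ((lt_min (sub_pos.2 y) (sub_pos.2 (Nat.one_lt_cast.2 ?_))).trans_le w)
  omega

end Vale.Agent.P283B.Asm
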